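import Vale.Agent.Lib.P033.Sine

namespace Vale.Agent.Results.P033.A_sharp_run

theorem result {n : ℕ} [NeZero n] (h : ZMod n → ℤ) (hh : ∀ j, h j = 1 ∨ h j = -1)
    (hP : ∀ t : ZMod n, t ≠ 0 → ∑ j, h j * h (j + t) = 0) (a d : ZMod n) (L : ℕ) (hL : 1 ≤ L)
    (hd : ∀ i : ℕ, 0 < i → i < L → (i : ZMod n) * d ≠ 0) :
    ((∀ i < L, h (a + (i : ZMod n) * d) = h a) →
      1 ≤ (n : ℝ) * Real.sin (Real.pi / (2 * L)) ^ 2 ∧ 4 * (L : ℝ) ^ 2 ≤ Real.pi ^ 2 * n) ∧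
    |∑ i ∈ Finset.range L, h (a + (i : ZMod n) * d)| ^ 3 +
        2 * |∑ i ∈ Finset.range L, h (a + (i : ZMod n) * d)| ≤ 3 * (L : ℤ) * n :=
  ⟨fun hrun => ⟨Vale.Agent.Lib.P033.sine_run hh hP a d L hL hd hrun,
      Vale.Agent.Lib.P033.sine_run_cor hh hP a d L hd hrun⟩,
    Vale.Agent.Lib.P033.disc_bound hh hP a d L hd⟩

end Vale.Agent.Results.P033.A_sharp_run
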